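import Vale.Agent.P116.AD.Spec

/-!
# P116, block [7], ROW 7-REP: the labelled set has at most `#D` components
-/

open Set Filter Topology Metric

namespace Vale.Agent.P116.AD.H592

open H906
open KB720 (cell un clo chi bdc Tk Flat)
open Vale.Agent.P116.Star (pt St Rl Tch Ins)
open H730 (RC Cl)

theorem pt_mem_cell {d₀ : ℝ} (hd : 0 < d₀) (k : ℕ) (v V : ℤ × ℤ) :
    pt (d₀ / 2 ^ k) v ∈ cell d₀ V ↔
      2 ^ k * V.1 ≤ v.1 ∧ v.1 ≤ 2 ^ k * (V.1 + 1) ∧ 2 ^ k * V.2 ≤ v.2 ∧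
        v.2 ≤ 2 ^ k * (V.2 + 1) := by
  have h2 : (0 : ℝ) < 2 ^ k := by positivity
  have key1 : ∀ a b : ℤ, d₀ * (a : ℝ) ≤ d₀ / 2 ^ k * (b : ℝ) ↔ 2 ^ k * a ≤ b := by
    intro a b
    rw [div_mul_eq_mul_div, le_div_iff₀ h2, mul_assoc, mul_le_mul_iff_right₀ hd]
    constructor
    · intro h
      have : ((2 ^ k * a : ℤ) : ℝ) ≤ (b : ℝ) := by push_cast; linarith
      exact_mod_cast this
    · intro h
      have : ((2 ^ k * a : ℤ) : ℝ) ≤ (b : ℝ) := by exact_mod_cast h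
      push_cast at this
      linarith
  have key2 : ∀ a b : ℤ, d₀ / 2 ^ k * (b : ℝ) ≤ d₀ * ((a : ℝ) + 1) ↔ b ≤ 2 ^ k * (a + 1) := by
    intro a b
    rw [div_mul_eq_mul_div, div_le_iff₀ h2, mul_assoc, mul_le_mul_iff_right₀ hd]
    constructor
    · intro h
      have : (b : ℝ) ≤ ((2 ^ k * (a + 1) : ℤ) : ℝ) := by push_cast; linarith
      exact_mod_cast this
    · intro h
      have : (b : ℝ) ≤ ((2 ^ k * (a + 1) : ℤ) : ℝ) := by exact_mod_cast h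
      push_cast at this
      linarith
  unfold cell pt
  simp only [mem_ofPred_eq]
  rw [key1, key2, key1, key2]

theorem rc_hor {S : Set (ℤ × ℤ)} (n : ℕ) : ∀ a b : ℤ, (∀ j : ℕ, j ≤ n → (a + j, b) ∈ S) →
    RC S (a + n, b) (a, b) := by
  induction n with
  | zero => intro a b _; simpa using RC.refl (S := S) (a, b)
  | succ n ih =>
    intro a b h
    have h1 := ih a b (fun j hj => h j (by omega))
    refine RC.trans (RC.single ?_ (h (n + 1) le_rfl) (h n (by omega))) h1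
    simp only [Cl]
    push_cast
    omega

theorem rc_ver {S : Set (ℤ × ℤ)} (n : ℕ) : ∀ a b : ℤ, (∀ j : ℕ, j ≤ n → (a, b + j) ∈ S) →
    RC S (a, b + n) (a, b) := by
  induction n with
  | zero => intro a b _; simpa using RC.refl (S := S) (a, b)
  | succ n ih =>
    intro a b h
    have h1 := ih a b (fun j hj => h j (by omega))
    refine RC.trans (RC.single ?_ (h (n + 1) le_rfl) (h n (by omega))) h1
    simp only [Cl]
    push_cast
    omega

/-- **ROW 7-REP** -/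
theorem rowRep : RowRep := by
  classical
  intro d₀ D k hd
  refine ⟨D.image fun V => (2 ^ k * V.1, 2 ^ k * V.2), Finset.card_image_le, ?_⟩
  intro v hv
  obtain ⟨V, hV, hvV⟩ : ∃ V ∈ D, pt (d₀ / 2 ^ k) v ∈ cell d₀ V := by
    simpa [un] using hv
  have hmem : ∀ x : ℤ × ℤ, 2 ^ k * V.1 ≤ x.1 → x.1 ≤ 2 ^ k * (V.1 + 1) → 2 ^ k * V.2 ≤ x.2 →
      x.2 ≤ 2 ^ k * (V.2 + 1) → x ∈ {v | pt (d₀ / 2 ^ k) v ∈ un d₀ D} := by
    intro x h1 h2 h3 h4
    have : pt (d₀ / 2 ^ k) x ∈ cell d₀ V := (pt_mem_cell hd k x V).2 ⟨h1, h2, h3, h4⟩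
    change pt (d₀ / 2 ^ k) x ∈ un d₀ D
    unfold un
    exact mem_biUnion hV this
  obtain ⟨h1, h2, h3, h4⟩ := (pt_mem_cell hd k v V).1 hvV
  refine ⟨(2 ^ k * V.1, 2 ^ k * V.2), Finset.mem_image_of_mem _ hV, ?_⟩
  have e1 : ((v.1 - 2 ^ k * V.1).toNat : ℤ) = v.1 - 2 ^ k * V.1 := Int.toNat_of_nonneg (by linarith)
  have e2 : ((v.2 - 2 ^ k * V.2).toNat : ℤ) = v.2 - 2 ^ k * V.2 := Int.toNat_of_nonneg (by linarith)
  have p1 := rc_hor (S := {v | pt (d₀ / 2 ^ k) v ∈ un d₀ D}) (v.1 - 2 ^ k * V.1).toNat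
    (2 ^ k * V.1) v.2 (fun j hj => by
      have hj' : (j : ℤ) ≤ v.1 - 2 ^ k * V.1 := by rw [← e1]; exact_mod_cast hj
      have hj0 : (0 : ℤ) ≤ j := Int.natCast_nonneg j
      exact hmem _ (by simp only; linarith) (by simp only; linarith) h3 h4)
  have p2 := rc_ver (S := {v | pt (d₀ / 2 ^ k) v ∈ un d₀ D}) (v.2 - 2 ^ k * V.2).toNat
    (2 ^ k * V.1) (2 ^ k * V.2) (fun j hj => by
      have hj' : (j : ℤ) ≤ v.2 - 2 ^ k * V.2 := by rw [← e2]; exact_mod_cast hj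
      have hj0 : (0 : ℤ) ≤ j := Int.natCast_nonneg j
      exact hmem _ le_rfl (by simp only; linarith) (by simp only; linarith) (by simp only; linarith))
  rw [e1, show 2 ^ k * V.1 + (v.1 - 2 ^ k * V.1) = v.1 by ring] at p1
  rw [e2, show 2 ^ k * V.2 + (v.2 - 2 ^ k * V.2) = v.2 by ring] at p2
  exact p1.trans p2

end Vale.Agent.P116.AD.H592
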